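import Vale.Agent.P038.H115.SNC

/-!
# P038: the second neighbourhood theorem for all oriented graphs
-/

namespace Vale.Agent.P038.H115

open Finset Vale.Agent.P038.H139

universe u

/-- There is no normal form with ratio one. -/
theorem no_NF (V : Type u) [Fintype V] [Nonempty V] (D : OGraph V) (w : V → ℝ) : ¬ NF 1 D w := by
  classical
  intro h0
  obtain ⟨D, w, h⟩ := exists_nfmin h0
  have hw : ∀ v, 0 < w v := h.toNF.pos
  set N : V → Finset V := fun a => cl D {a} with hNdef
  have hN : ∀ a b, b ∈ N a ↔ (a = b ∨ D.arc a b) := by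
    intro a b
    simp only [hNdef, mem_cl, Finset.mem_singleton, exists_eq_left]
    constructor
    · rintro (h1 | h1)
      · exact Or.inl h1.symm
      · exact Or.inr h1
    · rintro (h1 | h1)
      · exact Or.inl h1.symm
      · exact Or.inr h1
  have hnb : ∀ S : Finset V, H391.nb N S = cl D S := by
    intro S
    ext y
    rw [H391.mem_nb, mem_cl]
    constructor
    · rintro ⟨x, hx, hxy⟩
      rcases (hN x y).1 hxy with h1 | h1
      · exact Or.inl (h1 ▸ hx)
      · exact Or.inr ⟨x, hx, h1⟩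
    · rintro (h1 | ⟨x, hx, hxy⟩)
      · exact ⟨y, h1, (hN y y).2 (Or.inl rfl)⟩
      · exact ⟨x, hx, (hN x y).2 (Or.inr hxy)⟩
  have hout : ∀ a, ∃ b, D.arc a b := by
    intro a
    by_contra hcon
    push Not at hcon
    have h1 := h.toNF.one a
    have h2 : N1 D a = ∅ := by
      ext x
      rw [mem_N1]
      simp [hcon x]
    have h3 : 0 ≤ W w (N2 D a) := Finset.sum_nonneg fun v _ => (hw v).le
    unfold Fw at h1
    rw [h2] at h1
    have h4 : W w (∅ : Finset V) = 0 := Finset.sum_empty
    rw [h4] at h1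
    linarith
  refine contra D hw hout hN ?_
  intro X hX
  rw [hnb] at hX
  have hL : (∅ : Finset V) ⊂ H71.Lx D X := by
    rw [Finset.ssubset_iff_subset_ne]
    refine ⟨Finset.empty_subset _, fun he => hX ?_⟩
    ext y
    rw [mem_cl]
    constructor
    · rintro (h1 | h1)
      · exact h1
      · by_contra h2
        have : y ∈ H71.Lx D X := Finset.mem_sdiff.2 ⟨mem_outS.2 h1, h2⟩
        rw [← he] at this
        exact absurd this (Finset.notMem_empty y)
    · exact fun h1 => Or.inl h1
  have h1 := H71.plan_lt h X ∅ hL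
  unfold H71.dd at h1
  have e0 : cl D (∅ : Finset V) = ∅ := by
    ext y
    simp [mem_cl]
  have e1 : W w (∅ : Finset V) = 0 := Finset.sum_empty
  rw [e0, Finset.empty_sdiff, e1] at h1
  set L := H71.Lx D X with hLdef
  have hLX : Disjoint X L := by
    rw [Finset.disjoint_left]
    intro x hx hx'
    exact (Finset.mem_sdiff.1 hx').2 hx
  have e2 : cl D X = X ∪ L := by
    ext y
    rw [mem_cl, Finset.mem_union]
    constructor
    · rintro (h2 | h2)
      · exact Or.inl h2
      · by_cases h3 : y ∈ X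
        · exact Or.inl h3
        · exact Or.inr (Finset.mem_sdiff.2 ⟨mem_outS.2 h2, h3⟩)
    · rintro (h2 | h2)
      · exact Or.inl h2
      · exact Or.inr (mem_outS.1 (Finset.mem_sdiff.1 h2).1)
  have e3 : cl D (X ∪ L) = X ∪ (cl D L \ X) := by
    ext y
    rw [mem_cl, Finset.mem_union, Finset.mem_union, Finset.mem_sdiff, mem_cl]
    constructor
    · rintro ((h2 | h2) | ⟨x, hx, hxy⟩)
      · exact Or.inl h2
      · by_cases h3 : y ∈ X
        · exact Or.inl h3
        · exact Or.inr ⟨Or.inl h2, h3⟩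
      · by_cases h3 : y ∈ X
        · exact Or.inl h3
        · right
          refine ⟨?_, h3⟩
          rcases Finset.mem_union.1 hx with h4 | h4
          · exact Or.inl (Finset.mem_sdiff.2 ⟨mem_outS.2 ⟨x, h4, hxy⟩, h3⟩)
          · exact Or.inr ⟨x, h4, hxy⟩
    · rintro (h2 | ⟨h2 | ⟨x, hx, hxy⟩, h3⟩)
      · exact Or.inl (Or.inl h2)
      · exact Or.inl (Or.inr h2)
      · exact Or.inr ⟨x, Finset.mem_union_right _ hx, hxy⟩
  have e4 : W w (X ∪ L) = W w X + W w L := W_union hLX
  have e5 : W w (X ∪ (cl D L \ X)) = W w X + W w (cl D L \ X) :=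
    W_union (Finset.disjoint_sdiff)
  unfold H391.hh
  rw [hnb, hnb, e2, e3]
  change W w (X ∪ (cl D L \ X)) - W w (X ∪ L) < W w (X ∪ L) - W w X
  rw [e4, e5]
  linarith

/-- **Seymour's second neighbourhood theorem**, weighted form. -/
theorem weighted {V : Type u} [Fintype V] [Nonempty V] (D : OGraph V) (w : V → ℝ)
    (hw : ∀ v, 0 ≤ w v) : ∃ v, ∑ u ∈ N1 D v, w u ≤ ∑ u ∈ N2 D v, w u := by
  obtain ⟨v, hv⟩ := snc_of_noNF (zero_le_one) no_NF D w hw
  exact ⟨v, by rwa [one_mul] at hv⟩

/-- **Seymour's second neighbourhood theorem.** -/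
theorem seymour {V : Type u} [Fintype V] [Nonempty V] (D : OGraph V) :
    ∃ v, (N1 D v).card ≤ (N2 D v).card := by
  obtain ⟨v, hv⟩ := weighted D (fun _ => (1 : ℝ)) fun _ => zero_le_one
  refine ⟨v, ?_⟩
  simpa using hv


end Vale.Agent.P038.H115
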