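import Vale.Agent.P038.H391.MF
import Vale.Agent.P038.H71.Plan
import Vale.Agent.P038.H139.NF

/-!
# P038: from the gap inequality to the second neighbourhood theorem
-/

set_option linter.unusedSectionVars false

namespace Vale.Agent.P038.H115

open Finset Vale.Agent.P038.H391

universe u

variable {V : Type u} [Fintype V] [DecidableEq V]

/-- Outer feasible pairs. -/
structure Out (N : V → Finset V) (B C : V → Finset V) : Prop where
  left : ∀ a, N a ⊆ B a
  right : ∀ a, N a ⊆ C a
  orth : ∀ a b, b ∈ B a → a ∈ C b → a = b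

/-- The energy of a pair. -/
noncomputable def En (N : V → Finset V) (w : V → ℝ) (B C : V → Finset V) : ℝ :=
  ∑ a, w a * hh N w (B a) + ∑ a, w a * hh N w (C a)

/-- The meet of an outer feasible pair is inner feasible. -/
theorem inner {N : V → Finset V} (hrefl : ∀ a, a ∈ N a) {B C : V → Finset V} (h : Out N B C)
    {a y : V} (h1 : y ∈ nb N (meet N B a)) (h2 : a ∈ nb N (meet N C y)) : a = y := by
  rw [mem_nb] at h1 h2
  obtain ⟨x, hx, hxy⟩ := h1
  obtain ⟨z, hz, hza⟩ := h2
  rw [mem_meet] at hx hz
  have e : z = x := h.orth z x (hx z hza) (hz x hxy)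
  subst e
  have e1 : a = z := h.orth a z (hx a (hrefl a)) (h.right z hza)
  have e2 : z = y := h.orth z y (h.left z hxy) (hz y (hrefl y))
  rw [e1, e2]

theorem self_mem_meet {N : V → Finset V} {B : V → Finset V} (hB : ∀ a, N a ⊆ B a) (a : V) :
    a ∈ meet N B a := mem_meet.2 fun s hs => hB s hs

/-- The double sum of the boundary of a relation. -/
theorem sum_hh (N : V → Finset V) (w : V → ℝ) (hrefl : ∀ a, a ∈ N a) (B : V → Finset V) :
    ∑ a, w a * hh N w (B a) =
      ∑ a, ∑ y, w a * w y * (if y ∈ nb N (B a) ∧ y ∉ B a then 1 else 0) := by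
  refine Finset.sum_congr rfl fun a _ => ?_
  have hsub : B a ⊆ nb N (B a) := fun x hx => mem_nb.2 ⟨x, hx, hrefl x⟩
  have h1 : hh N w (B a) = W w (nb N (B a) \ B a) := by
    unfold hh W
    have := Finset.sum_sdiff (f := w) hsub
    linarith
  rw [h1, W, Finset.mul_sum]
  have h2 : nb N (B a) \ B a = univ.filter (fun y => y ∈ nb N (B a) ∧ y ∉ B a) := by
    ext y
    simp
  rw [h2, Finset.sum_filter]
  refine Finset.sum_congr rfl fun y _ => ?_
  split_ifs <;> ring

/-- The inequality without gap. -/
theorem nogap {N : V → Finset V} {w : V → ℝ} (hw : ∀ v, 0 < w v) (hrefl : ∀ a, a ∈ N a)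
    {U C : V → Finset V} (h : Out N U C) (hfull : ∀ a b, b ∉ U a → a ∈ C b) :
    En N w (meet N U) (meet N C) ≤ En N w U C := by
  unfold En
  rw [sum_hh N w hrefl, sum_hh N w hrefl, sum_hh N w hrefl, sum_hh N w hrefl]
  rw [Finset.sum_comm (f := fun a y => w a * w y * (if y ∈ nb N (meet N C a) ∧ y ∉ meet N C a
    then (1 : ℝ) else 0)), Finset.sum_comm (f := fun a y => w a * w y *
    (if y ∈ nb N (C a) ∧ y ∉ C a then (1 : ℝ) else 0))]
  rw [← Finset.sum_add_distrib, ← Finset.sum_add_distrib]
  refine Finset.sum_le_sum fun a _ => ?_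
  rw [← Finset.sum_add_distrib, ← Finset.sum_add_distrib]
  refine Finset.sum_le_sum fun y _ => ?_
  have hpos : 0 < w a * w y := mul_pos (hw a) (hw y)
  have hP12 : ¬ ((y ∈ nb N (meet N U a) ∧ y ∉ meet N U a) ∧
      (a ∈ nb N (meet N C y) ∧ a ∉ meet N C y)) := by
    rintro ⟨⟨h1, h2⟩, h3, h4⟩
    have e := inner hrefl h h1 h3
    subst e
    exact h2 (self_mem_meet h.left a)
  have hP1 : (y ∈ nb N (meet N U a) ∧ y ∉ meet N U a) →
      (y ∈ nb N (U a) ∧ y ∉ U a) ∨ (a ∈ nb N (C y) ∧ a ∉ C y) := by
    rintro ⟨h1, h2⟩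
    have hay : a ≠ y := by
      rintro rfl
      exact h2 (self_mem_meet h.left a)
    have h1' : y ∈ nb N (U a) := by
      rw [mem_nb] at h1 ⊢
      obtain ⟨x, hx, hxy⟩ := h1
      exact ⟨x, mem_meet.1 hx a (hrefl a), hxy⟩
    by_cases h3 : y ∈ U a
    · right
      refine ⟨?_, fun h4 => hay (h.orth a y h3 h4)⟩
      rw [mem_meet] at h2
      push Not at h2
      obtain ⟨s, hs, hs'⟩ := h2
      exact mem_nb.2 ⟨s, hfull s y hs', hs⟩
    · exact Or.inl ⟨h1', h3⟩
  have hP2 : (a ∈ nb N (meet N C y) ∧ a ∉ meet N C y) →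
      (y ∈ nb N (U a) ∧ y ∉ U a) ∨ (a ∈ nb N (C y) ∧ a ∉ C y) := by
    rintro ⟨h1, h2⟩
    have hay : a ≠ y := by
      rintro rfl
      exact h2 (self_mem_meet h.right a)
    have h1' : a ∈ nb N (C y) := by
      rw [mem_nb] at h1 ⊢
      obtain ⟨x, hx, hxy⟩ := h1
      exact ⟨x, mem_meet.1 hx y (hrefl y), hxy⟩
    by_cases h3 : a ∈ C y
    · left
      refine ⟨?_, fun h4 => hay (h.orth a y h4 h3)⟩
      rw [mem_meet] at h2
      push Not at h2
      obtain ⟨t, ht, ht'⟩ := h2
      refine mem_nb.2 ⟨t, ?_, ht⟩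
      by_contra h5
      exact ht' (hfull a t h5)
    · exact Or.inr ⟨h1', h3⟩
  have e1 : w y * w a = w a * w y := mul_comm _ _
  rw [e1, ← mul_add, ← mul_add]
  refine mul_le_mul_of_nonneg_left ?_ hpos.le
  by_cases p1 : (y ∈ nb N (meet N U a) ∧ y ∉ meet N U a)
  · have p2 : ¬ (a ∈ nb N (meet N C y) ∧ a ∉ meet N C y) := fun h2 => hP12 ⟨p1, h2⟩
    rw [if_pos p1, if_neg p2]
    rcases hP1 p1 with h3 | h3
    · rw [if_pos h3]
      split_ifs <;> norm_num
    · rw [if_pos h3]
      split_ifs <;> norm_num
  · rw [if_neg p1]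
    by_cases p2 : (a ∈ nb N (meet N C y) ∧ a ∉ meet N C y)
    · rw [if_pos p2]
      rcases hP2 p2 with h3 | h3
      · rw [if_pos h3]
        split_ifs <;> norm_num
      · rw [if_pos h3]
        split_ifs <;> norm_num
    · rw [if_neg p2]
      split_ifs <;> norm_num

theorem exists_min {N : V → Finset V} (w : V → ℝ) (h0 : Out N N N) :
    ∃ B C : V → Finset V, Out N B C ∧ ∀ B' C', Out N B' C' → En N w B C ≤ En N w B' C' := by
  obtain ⟨p, hp, hmin⟩ := Set.exists_min_image
    {p : (V → Finset V) × (V → Finset V) | Out N p.1 p.2} (fun p => En N w p.1 p.2)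
    (Set.toFinite _) ⟨(N, N), h0⟩
  exact ⟨p.1, p.2, hp, fun B' C' h' => hmin (B', C') h'⟩

/-- Changing one row of the first family. -/
theorem En_update_left (N : V → Finset V) (w : V → ℝ) (B C : V → Finset V) (a : V)
    (Y : Finset V) :
    En N w (Function.update B a Y) C = En N w B C + w a * (hh N w Y - hh N w (B a)) := by
  unfold En
  have h1 : ∀ B' : V → Finset V, ∑ x, w x * hh N w (B' x) =
      w a * hh N w (B' a) + ∑ x ∈ univ.erase a, w x * hh N w (B' x) := fun B' =>
    (Finset.add_sum_erase _ _ (Finset.mem_univ a)).symm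
  rw [h1 (Function.update B a Y), h1 B, Function.update_self]
  have h2 : ∑ x ∈ univ.erase a, w x * hh N w (Function.update B a Y x) =
      ∑ x ∈ univ.erase a, w x * hh N w (B x) := by
    refine Finset.sum_congr rfl fun x hx => ?_
    rw [Function.update_of_ne (Finset.ne_of_mem_erase hx)]
  rw [h2]
  ring

theorem En_update_right (N : V → Finset V) (w : V → ℝ) (B C : V → Finset V) (a : V)
    (Y : Finset V) :
    En N w B (Function.update C a Y) = En N w B C + w a * (hh N w Y - hh N w (C a)) := by
  have h1 := En_update_left N w C B a Y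
  unfold En at h1 ⊢
  linarith

/-- The minimum over inner pairs is at most the minimum over outer pairs. -/
theorem inner_le {N : V → Finset V} {w : V → ℝ} (hw : ∀ v, 0 < w v) (hrefl : ∀ a, a ∈ N a)
    {B C : V → Finset V} (h : Out N B C)
    (hmin : ∀ B' C', Out N B' C' → En N w B C ≤ En N w B' C') :
    En N w (meet N B) (meet N C) ≤ En N w B C := by
  classical
  set U : V → Finset V := fun a => univ.filter (fun b => b = a ∨ a ∉ C b) with hU
  have memU : ∀ a b, b ∈ U a ↔ (b = a ∨ a ∉ C b) := fun a b => by simp [hU]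
  have hBU : ∀ a, B a ⊆ U a := by
    intro a b hb
    rw [memU]
    by_cases h1 : a ∈ C b
    · exact Or.inl (h.orth a b hb h1).symm
    · exact Or.inr h1
  have hUC : Out N U C := by
    refine ⟨fun a => (h.left a).trans (hBU a), h.right, fun a b h1 h2 => ?_⟩
    rcases (memU a b).1 h1 with h3 | h3
    · exact h3.symm
    · exact absurd h2 h3
  have hfull : ∀ a b, b ∉ U a → a ∈ C b := by
    intro a b h1
    rw [memU] at h1
    push Not at h1
    exact h1.2
  have hw0 : ∀ v, 0 ≤ w v := fun v => (hw v).le
  have hR : ∀ a Y, B a ⊆ Y → Y ⊆ U a → hh N w (B a) ≤ hh N w Y := by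
    intro a Y h1 h2
    have h3 := hmin (Function.update B a Y) C ⟨?_, h.right, ?_⟩
    · rw [En_update_left] at h3
      have h4 : 0 ≤ w a * (hh N w Y - hh N w (B a)) := by linarith
      have h5 := nonneg_of_mul_nonneg_right h4 (hw a)
      linarith
    · intro x
      by_cases hx : x = a
      · subst hx
        rw [Function.update_self]
        exact (h.left x).trans h1
      · rw [Function.update_of_ne hx]
        exact h.left x
    · intro x y hy hx
      by_cases hxa : x = a
      · subst hxa
        rw [Function.update_self] at hy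
        exact hUC.orth x y (h2 hy) hx
      · rw [Function.update_of_ne hxa] at hy
        exact h.orth x y hy hx
  have hC : ∀ b, ∀ S : Finset V, (∀ s ∈ S, b ∈ U s ∧ b ∉ B s) →
      ∀ S' : Finset V, (∀ z, z ∈ S' ↔ ∃ s ∈ S, z ∈ N s ∧ b ∈ meet N U z) → W w S ≤ W w S' := by
    intro b S hS S' hS'
    have hSC : ∀ s ∈ S, s ∉ C b := by
      intro s hs
      rcases (memU s b).1 (hS s hs).1 with h1 | h1
      · subst h1
        exact absurd (h.left b (hrefl b)) (hS b hs).2
      · exact h1
    have h3 := hmin B (Function.update C b (C b ∪ S)) ⟨h.left, ?_, ?_⟩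
    · rw [En_update_right] at h3
      have h4 : 0 ≤ w b * (hh N w (C b ∪ S) - hh N w (C b)) := by linarith
      have h5 := nonneg_of_mul_nonneg_right h4 (hw b)
      have hdisj : Disjoint (C b) S := by
        rw [Finset.disjoint_left]
        intro x hx hx'
        exact hSC x hx' hx
      have h6 : W w (C b ∪ S) = W w (C b) + W w S := Finset.sum_union hdisj
      have h7 : nb N (C b ∪ S) ⊆ nb N (C b) ∪ S' := by
        intro z hz
        rw [Finset.mem_union]
        by_cases hz' : z ∈ nb N (C b)
        · exact Or.inl hz'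
        · right
          rw [nb_union, Finset.mem_union] at hz
          rcases hz with hz | hz
          · exact absurd hz hz'
          · rw [mem_nb] at hz hz'
            push Not at hz'
            obtain ⟨s, hs, hsz⟩ := hz
            rw [hS']
            refine ⟨s, hs, hsz, mem_meet.2 fun t ht => ?_⟩
            rw [memU]
            right
            intro htC
            exact hz' t htC ht
      have h8 : W w (nb N (C b ∪ S)) ≤ W w (nb N (C b)) + W w S' := by
        refine (W_mono hw0 h7).trans ?_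
        have h9 := W_union_inter w (nb N (C b)) S'
        have h10 : 0 ≤ W w (nb N (C b) ∩ S') := Finset.sum_nonneg fun v _ => hw0 v
        linarith
      unfold hh at h5
      linarith
    · intro x
      by_cases hx : x = b
      · subst hx
        rw [Function.update_self]
        exact (h.right x).trans Finset.subset_union_left
      · rw [Function.update_of_ne hx]
        exact h.right x
    · intro x y hy hx
      by_cases hyb : y = b
      · subst hyb
        rw [Function.update_self, Finset.mem_union] at hx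
        rcases hx with hx | hx
        · exact h.orth x y hy hx
        · exact absurd hy (hS x hx).2
      · rw [Function.update_of_ne hyb] at hx
        exact h.orth x y hy hx
  have hgap := gap_ineq N w hw0 (hh N w) (hh_submod N hw0) hBU hR hC
  have hno := nogap hw hrefl hUC hfull
  have e1 : ∑ a, w a * (hh N w (U a) - hh N w (B a)) =
      ∑ a, w a * hh N w (U a) - ∑ a, w a * hh N w (B a) := by
    rw [← Finset.sum_sub_distrib]
    exact Finset.sum_congr rfl fun a _ => by ring
  have e2 : ∑ a, w a * (hh N w (meet N U a) - hh N w (meet N B a)) =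
      ∑ a, w a * hh N w (meet N U a) - ∑ a, w a * hh N w (meet N B a) := by
    rw [← Finset.sum_sub_distrib]
    exact Finset.sum_congr rfl fun a _ => by ring
  rw [e1, e2] at hgap
  unfold En at hno ⊢
  linarith

/-- The contradiction. -/
theorem contra [Nonempty V] (D : OGraph V) {w : V → ℝ} (hw : ∀ v, 0 < w v)
    (hout : ∀ a, ∃ b, D.arc a b) {N : V → Finset V} (hN : ∀ a b, b ∈ N a ↔ (a = b ∨ D.arc a b))
    (hG : ∀ X : Finset V, nb N X ≠ X → hh N w (nb N X) < hh N w X) : False := by
  classical
  have hrefl : ∀ a, a ∈ N a := fun a => (hN a a).2 (Or.inl rfl)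
  have h0 : Out N N N := by
    refine ⟨fun a => le_refl _, fun a => le_refl _, fun a b h1 h2 => ?_⟩
    rcases (hN a b).1 h1 with h3 | h3
    · exact h3
    · rcases (hN b a).1 h2 with h4 | h4
      · exact h4.symm
      · exact absurd h4 (D.asymm _ _ h3)
  obtain ⟨B, C, h, hmin⟩ := exists_min w h0
  have hin := inner_le hw hrefl h hmin
  set X := meet N B with hX
  set Y := meet N C with hY
  have hle : ∀ S : Finset V, hh N w (nb N S) ≤ hh N w S := by
    intro S
    by_cases hS : nb N S = S
    · rw [hS]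
    · exact (hG S hS).le
  have hnew : Out N (fun a => nb N (X a)) (fun a => nb N (Y a)) := by
    refine ⟨fun a => ?_, fun a => ?_, fun a b h1 h2 => inner hrefl h h1 h2⟩
    · intro b hb
      exact mem_nb.2 ⟨a, self_mem_meet h.left a, hb⟩
    · intro b hb
      exact mem_nb.2 ⟨a, self_mem_meet h.right a, hb⟩
  have h1 := hmin _ _ hnew
  have h2 : ∑ a, w a * hh N w (nb N (X a)) ≤ ∑ a, w a * hh N w (X a) :=
    Finset.sum_le_sum fun a _ => mul_le_mul_of_nonneg_left (hle _) (hw a).le
  have h3 : ∑ a, w a * hh N w (nb N (Y a)) ≤ ∑ a, w a * hh N w (Y a) :=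
    Finset.sum_le_sum fun a _ => mul_le_mul_of_nonneg_left (hle _) (hw a).le
  unfold En at h1 hin
  have h4 : ∑ a, w a * hh N w (nb N (X a)) = ∑ a, w a * hh N w (X a) := by linarith
  have h5 : ∑ a, w a * hh N w (nb N (Y a)) = ∑ a, w a * hh N w (Y a) := by linarith
  have closed : ∀ Z : V → Finset V,
      ∑ a, w a * hh N w (nb N (Z a)) = ∑ a, w a * hh N w (Z a) → ∀ a, nb N (Z a) = Z a := by
    intro Z hZ a
    by_contra hne
    have h6 := (Finset.sum_eq_sum_iff_of_le (fun a _ =>
      mul_le_mul_of_nonneg_left (hle (Z a)) (hw a).le)).1 hZ a (Finset.mem_univ a)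
    have h7 := mul_lt_mul_of_pos_left (hG (Z a) hne) (hw a)
    linarith
  have hXc := closed X h4
  have hYc := closed Y h5
  have reach : ∀ Z : V → Finset V, (∀ a, nb N (Z a) = Z a) → (∀ a, a ∈ Z a) →
      ∀ a b, Relation.ReflTransGen D.arc a b → b ∈ Z a := by
    intro Z hZ hZ' a b hab
    induction hab with
    | refl => exact hZ' a
    | tail _ hbc ih =>
      rw [← hZ a]
      exact mem_nb.2 ⟨_, ih, (hN _ _).2 (Or.inr hbc)⟩
  set R : V → Finset V := fun a => univ.filter (fun b => Relation.ReflTransGen D.arc a b) with hR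
  obtain ⟨a, _, ha⟩ := Finset.exists_min_image univ (fun a => (R a).card)
    Finset.univ_nonempty
  obtain ⟨b, hab⟩ := hout a
  have hsub : R b ⊆ R a := by
    intro x hx
    simp only [hR, Finset.mem_filter, Finset.mem_univ, true_and] at hx ⊢
    exact (Relation.ReflTransGen.single hab).trans hx
  have heq : R b = R a := Finset.eq_of_subset_of_card_le hsub (ha b (Finset.mem_univ b))
  have hba : Relation.ReflTransGen D.arc b a := by
    have : a ∈ R a := by simp [hR, Relation.ReflTransGen.refl]
    rw [← heq] at this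
    simpa [hR] using this
  have hbX : b ∈ X a := reach X hXc (fun a => self_mem_meet h.left a) a b
    (Relation.ReflTransGen.single hab)
  have haY : a ∈ Y b := reach Y hYc (fun a => self_mem_meet h.right a) b a hba
  have hbX' : b ∈ nb N (X a) := by rw [hXc]; exact hbX
  have haY' : a ∈ nb N (Y b) := by rw [hYc]; exact haY
  have e : a = b := inner hrefl h hbX' haY'
  subst e
  exact D.loopless _ hab

end Vale.Agent.P038.H115
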